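import Vale.Agent.P362.Bdl.B1

/-!
# P362: the optimal exponent relating randomized and quantum query complexity is 4
-/

open Vale.Agent.P362.Stmt

/-- `α_tot = 4`: `R(f) ≤ C (1 + Q(f))^4` for all total `f`, and no smaller exponent works. -/
theorem Vale.Agent.Results.P362.AlphaTotFour.result :
    alphaTot = 4 ∧ PolyBound 4 ∧ ∀ α < 4, ¬ PolyBound α :=
  ⟨alphaTot_eq.trans (Vale.Agent.P362.alphaTot_eq Vale.Agent.P362.polyBound_four),
    (polyBound_iff 4).2 Vale.Agent.P362.polyBound_four,
    fun α hα h => Vale.Agent.P362.not_polyBound α hα ((polyBound_iff α).1 h)⟩
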